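import Mathlib
import Vale.Agent.P237.Loss.Fibre

/-!
The monotone map from the profile of the ball to a profile: the mass coordinate of the profile.
-/

namespace Vale.Agent.P237.Front

open MeasureTheory Set Full Loss
open scoped Topology

/-- The profile of the ball, to the power `m`. -/
noncomputable def q0 (m : ℕ) (x : ℝ) : ℝ := √(1 - x ^ 2) ^ m

/-- The mass of a profile on the half interval. -/
noncomputable def mass (f : ℝ → ℝ) (s : ℝ) : ℝ := ∫ t in (0 : ℝ)..s, f t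

/-- The volume ratio of a profile to the ball. -/
noncomputable def volRatio (m : ℕ) (φ : ℝ → ℝ) : ℝ :=
  (∫ t in Ioo (0 : ℝ) 1, φ t ^ m) / ∫ x in Ioo (0 : ℝ) 1, q0 m x

/-- The ball coordinate to height map. -/
noncomputable def ballMap (m : ℕ) (φ : ℝ → ℝ) (x : ℝ) : ℝ :=
  Function.invFunOn (mass fun t => φ t ^ m) (Icc 0 1) (volRatio m φ * mass (q0 m) x)

/-- The derivative of the map. -/
noncomputable def ballSlope (m : ℕ) (φ : ℝ → ℝ) (x : ℝ) : ℝ :=
  volRatio m φ * q0 m x / φ (ballMap m φ x) ^ m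

private lemma mass_props {f : ℝ → ℝ} (hi : IntervalIntegrable f volume 0 1)
    (hc : ContinuousOn f (Ioo 0 1)) (hp : ∀ t ∈ Ioo (0 : ℝ) 1, 0 < f t) :
    StrictMonoOn (mass f) (Icc 0 1) ∧ ContinuousOn (mass f) (Icc 0 1) ∧
      (∀ t ∈ Ioo (0 : ℝ) 1, HasDerivAt (mass f) (f t) t) ∧ mass f 0 = 0 ∧
      mass f 1 = ∫ t in Ioo (0 : ℝ) 1, f t := by
  have hsub : ∀ a ∈ Icc (0 : ℝ) 1, ∀ b ∈ Icc (0 : ℝ) 1, IntervalIntegrable f volume a b :=
    fun a ha b hb => hi.mono_set (by rw [uIcc_of_le zero_le_one]; exact uIcc_subset_Icc ha hb)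
  refine ⟨fun a ha b hb hab => ?_, ?_, fun t ht => ?_, by simp [mass], ?_⟩
  · have h := intervalIntegral.intervalIntegral_pos_of_pos_on (hsub a ha b hb)
      (fun t ht => hp t ⟨ha.1.trans_lt ht.1, ht.2.trans_le hb.2⟩) hab
    have h2 := intervalIntegral.integral_add_adjacent_intervals (hsub 0 (by simp) a ha)
      (hsub a ha b hb)
    simp only [mass]
    linarith
  · have h := intervalIntegral.continuousOn_primitive_interval' hi left_mem_uIcc
    rwa [uIcc_of_le zero_le_one] at h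
  · exact intervalIntegral.integral_hasDerivAt_right (hsub 0 (by simp) t (Ioo_subset_Icc_self ht))
      (hc.stronglyMeasurableAtFilter isOpen_Ioo t ht) (hc.continuousAt (isOpen_Ioo.mem_nhds ht))
  · rw [mass, intervalIntegral.integral_of_le zero_le_one, integral_Ioc_eq_integral_Ioo]

variable {m : ℕ} {φ : ℝ → ℝ}

private lemma sub_Ioo : Ioo (0 : ℝ) 1 ⊆ Ioo (-1) 1 := Ioo_subset_Ioo_left (by norm_num)

theorem q0_pos {x : ℝ} (hx : x ∈ Ioo (0 : ℝ) 1) : 0 < q0 m x :=
  pow_pos (Real.sqrt_pos.2 (by nlinarith [hx.1, hx.2])) m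

theorem continuous_q0 (m : ℕ) : Continuous (q0 m) := by unfold q0; fun_prop

theorem intervalIntegrable_pow (hφ : IsProfile m φ) (k : ℕ) :
    IntervalIntegrable (fun t => φ t ^ k) volume 0 1 := by
  rw [intervalIntegrable_iff_integrableOn_Ioo_of_le zero_le_one]
  refine IntegrableOn.of_bound (by simp) ((((profile_continuousOn hφ).mono sub_Ioo).pow k
    ).aestronglyMeasurable measurableSet_Ioo) (φ 0 ^ k) ?_
  filter_upwards [ae_restrict_mem measurableSet_Ioo] with t ht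
  rw [Real.norm_eq_abs, abs_pow, abs_of_pos (profile_pos hφ (sub_Ioo ht))]
  exact pow_le_pow_left₀ (profile_pos hφ (sub_Ioo ht)).le
    (profile_le_top hφ (Ioo_subset_Icc_self (sub_Ioo ht))) k

private lemma profile_mass (hφ : IsProfile m φ) :
    StrictMonoOn (mass fun t => φ t ^ m) (Icc 0 1) ∧
      ContinuousOn (mass fun t => φ t ^ m) (Icc 0 1) ∧
      (∀ t ∈ Ioo (0 : ℝ) 1, HasDerivAt (mass fun t => φ t ^ m) (φ t ^ m) t) ∧
      mass (fun t => φ t ^ m) 0 = 0 ∧
      mass (fun t => φ t ^ m) 1 = ∫ t in Ioo (0 : ℝ) 1, φ t ^ m :=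
  mass_props (intervalIntegrable_pow hφ m) (((profile_continuousOn hφ).mono sub_Ioo).pow m)
    fun t ht => pow_pos (profile_pos hφ (sub_Ioo ht)) m

private lemma ball_mass (m : ℕ) :
    StrictMonoOn (mass (q0 m)) (Icc 0 1) ∧ ContinuousOn (mass (q0 m)) (Icc 0 1) ∧
      (∀ t ∈ Ioo (0 : ℝ) 1, HasDerivAt (mass (q0 m)) (q0 m t) t) ∧ mass (q0 m) 0 = 0 ∧
      mass (q0 m) 1 = ∫ t in Ioo (0 : ℝ) 1, q0 m t :=
  mass_props ((continuous_q0 m).intervalIntegrable 0 1) (continuous_q0 m).continuousOn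
    fun _ ht => q0_pos ht

theorem ballMass_pos (m : ℕ) : 0 < ∫ x in Ioo (0 : ℝ) 1, q0 m x := by
  obtain ⟨hm, -, -, h0, h1⟩ := ball_mass m
  exact h1 ▸ h0 ▸ hm (left_mem_Icc.2 zero_le_one) (right_mem_Icc.2 zero_le_one) one_pos

theorem volRatio_pos (hφ : IsProfile m φ) : 0 < volRatio m φ := by
  obtain ⟨hm, -, -, h0, h1⟩ := profile_mass hφ
  exact div_pos (h1 ▸ h0 ▸ hm (left_mem_Icc.2 zero_le_one) (right_mem_Icc.2 zero_le_one) one_pos)
    (ballMass_pos m)

/-- The map carries the ball coordinate to heights. -/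
theorem ballMap_props (hφ : IsProfile m φ) :
    StrictMonoOn (ballMap m φ) (Icc 0 1) ∧ ContinuousOn (ballMap m φ) (Icc 0 1) ∧
      ballMap m φ 0 = 0 ∧ ballMap m φ 1 = 1 ∧
      (∀ x ∈ Ioo (0 : ℝ) 1, ballMap m φ x ∈ Ioo (0 : ℝ) 1) ∧
      ballMap m φ '' Ioo 0 1 = Ioo 0 1 ∧
      ∀ x ∈ Ioo (0 : ℝ) 1, HasDerivAt (ballMap m φ) (ballSlope m φ x) x := by
  obtain ⟨hfm, hfc, hfd, hf0, hf1⟩ := profile_mass hφ
  obtain ⟨hbm, hbc, hbd, hb0, hb1⟩ := ball_mass m
  set f := mass fun t => φ t ^ m with hf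
  set v := volRatio m φ with hv
  have hv0 : 0 < v := volRatio_pos hφ
  set b : ℝ → ℝ := fun x => v * mass (q0 m) x with hb
  have hb1' : b 1 = f 1 := by
    simp only [hb, hb1, hf1, hv, volRatio, div_mul_cancel₀ _ (ballMass_pos m).ne']
  have hb0' : b 0 = f 0 := by simp only [hb, hb0, hf0, mul_zero]
  set g := Function.invFunOn f (Icc 0 1) with hg
  have hsurj : SurjOn f (Icc 0 1) (Icc (f 0) (f 1)) := intermediate_value_Icc zero_le_one hfc
  have hg1 : ∀ u ∈ Icc (f 0) (f 1), g u ∈ Icc (0 : ℝ) 1 ∧ f (g u) = u := fun u hu =>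
    ⟨Function.invFunOn_mem (hsurj hu), Function.invFunOn_eq (hsurj hu)⟩
  have hgf : ∀ s ∈ Icc (0 : ℝ) 1, g (f s) = s := fun s hs => by
    refine hfm.injOn (Function.invFunOn_mem ⟨s, hs, rfl⟩) hs ?_
    exact Function.invFunOn_eq ⟨s, hs, rfl⟩
  have hgm : StrictMonoOn g (Icc (f 0) (f 1)) := fun a ha c hc hac => by
    by_contra hle
    have := hfm.monotoneOn (hg1 c hc).1 (hg1 a ha).1 (not_lt.1 hle)
    rw [(hg1 a ha).2, (hg1 c hc).2] at this
    linarith
  have hgc : ContinuousOn g (Icc (f 0) (f 1)) := by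
    rw [continuousOn_iff_continuous_domRestrict]
    set g' : Icc (f 0) (f 1) → Icc (0 : ℝ) 1 := fun u => ⟨g u, (hg1 u u.2).1⟩ with hg'
    have hmono : Monotone g' := fun a c hac => hgm.monotoneOn a.2 c.2 hac
    have hs : Function.Surjective g' := fun s =>
      ⟨⟨f s, hfm.monotoneOn (by simp) s.2 s.2.1, hfm.monotoneOn s.2 (by simp) s.2.2⟩,
        Subtype.ext (hgf s s.2)⟩
    exact continuous_subtype_val.comp (hmono.continuous_of_surjective hs)
  have hbI : ∀ x ∈ Icc (0 : ℝ) 1, b x ∈ Icc (f 0) (f 1) := fun x hx =>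
    ⟨hb0' ▸ mul_le_mul_of_nonneg_left (hbm.monotoneOn (by simp) hx hx.1) hv0.le,
      hb1' ▸ mul_le_mul_of_nonneg_left (hbm.monotoneOn hx (by simp) hx.2) hv0.le⟩
  have hS : ∀ x, ballMap m φ x = g (b x) := fun x => rfl
  have hSm : StrictMonoOn (ballMap m φ) (Icc 0 1) := fun a ha c hc hac => by
    rw [hS, hS]
    exact hgm (hbI a ha) (hbI c hc) (mul_lt_mul_of_pos_left (hbm ha hc hac) hv0)
  have hS0 : ballMap m φ 0 = 0 := by rw [hS, hb0', hgf 0 (by simp)]
  have hS1 : ballMap m φ 1 = 1 := by rw [hS, hb1', hgf 1 (by simp)]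
  have hSc : ContinuousOn (ballMap m φ) (Icc 0 1) :=
    hgc.comp (continuousOn_const.mul hbc) hbI
  have hmem : ∀ x ∈ Ioo (0 : ℝ) 1, ballMap m φ x ∈ Ioo (0 : ℝ) 1 := fun x hx =>
    ⟨hS0 ▸ hSm (by simp) (Ioo_subset_Icc_self hx) hx.1,
      hS1 ▸ hSm (Ioo_subset_Icc_self hx) (by simp) hx.2⟩
  refine ⟨hSm, hSc, hS0, hS1, hmem, ?_, fun x hx => ?_⟩
  · refine Subset.antisymm (by rintro _ ⟨x, hx, rfl⟩; exact hmem x hx) fun s hs => ?_
    have h := intermediate_value_Ioo zero_le_one hSc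
    rw [hS0, hS1] at h
    exact h hs
  · have hx' : b x ∈ Ioo (f 0) (f 1) :=
      ⟨hb0' ▸ mul_lt_mul_of_pos_left (hbm (by simp) (Ioo_subset_Icc_self hx) hx.1) hv0,
        hb1' ▸ mul_lt_mul_of_pos_left (hbm (Ioo_subset_Icc_self hx) (by simp) hx.2) hv0⟩
    have hd : HasDerivAt g (φ (ballMap m φ x) ^ m)⁻¹ (b x) :=
      (hfd _ (hmem x hx)).of_local_left_inverse
        (hgc.continuousAt (Icc_mem_nhds hx'.1 hx'.2))
        (pow_pos (profile_pos hφ (sub_Ioo (hmem x hx))) m).ne'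
        (Filter.eventually_of_mem (Icc_mem_nhds hx'.1 hx'.2) fun u hu => (hg1 u hu).2)
    refine (hd.comp x ((hbd x hx).const_mul v)).congr_deriv ?_
    rw [ballSlope, ← hv]
    ring

theorem ballSlope_pos (hφ : IsProfile m φ) {x : ℝ} (hx : x ∈ Ioo (0 : ℝ) 1) :
    0 < ballSlope m φ x :=
  div_pos (mul_pos (volRatio_pos hφ) (q0_pos hx))
    (pow_pos (profile_pos hφ (sub_Ioo ((ballMap_props hφ).2.2.2.2.1 x hx))) m)

/-- The profile dominates the circle: the slope constraint. -/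
theorem ballSlope_mul_q0_le (hφ : IsProfile m φ) {x : ℝ} (hx : x ∈ Ioo (0 : ℝ) 1) :
    ballSlope m φ x * q0 m (ballMap m φ x) ≤ volRatio m φ * q0 m x := by
  have hs := sub_Ioo ((ballMap_props hφ).2.2.2.2.1 x hx)
  rw [ballSlope, div_mul_eq_mul_div, div_le_iff₀ (pow_pos (profile_pos hφ hs) m)]
  refine mul_le_mul_of_nonneg_left ?_ (mul_nonneg (volRatio_pos hφ).le (q0_pos hx).le)
  exact pow_le_pow_left₀ (Real.sqrt_nonneg _) (hφ.above _ (Ioo_subset_Icc_self hs)) m

/-- Change of variables to the ball coordinate. -/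
theorem integral_comp_ballMap (hφ : IsProfile m φ) (F : ℝ → ℝ) :
    (IntegrableOn (fun t => F t * φ t ^ m) (Ioo 0 1) ↔
      IntegrableOn (fun x => F (ballMap m φ x) * q0 m x) (Ioo 0 1)) ∧
    (∫ t in Ioo (0 : ℝ) 1, F t * φ t ^ m) =
      volRatio m φ * ∫ x in Ioo (0 : ℝ) 1, F (ballMap m φ x) * q0 m x := by
  obtain ⟨hSm, -, -, -, hmem, him, hd⟩ := ballMap_props hφ
  have hd' : ∀ x ∈ Ioo (0 : ℝ) 1,
      HasDerivWithinAt (ballMap m φ) (ballSlope m φ x) (Ioo 0 1) x :=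
    fun x hx => (hd x hx).hasDerivWithinAt
  have hinj : InjOn (ballMap m φ) (Ioo 0 1) := (hSm.mono Ioo_subset_Icc_self).injOn
  have e : ∀ x ∈ Ioo (0 : ℝ) 1,
      |ballSlope m φ x| • (F (ballMap m φ x) * φ (ballMap m φ x) ^ m) =
        volRatio m φ * (F (ballMap m φ x) * q0 m x) := fun x hx => by
    have := pow_pos (profile_pos hφ (sub_Ioo (hmem x hx))) m
    rw [abs_of_pos (ballSlope_pos hφ hx), smul_eq_mul, ballSlope]
    field_simp
  constructor
  · have h := integrableOn_image_iff_integrableOn_abs_deriv_smul measurableSet_Ioo hd' hinj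
      (fun t => F t * φ t ^ m)
    rw [him] at h
    rw [h, integrableOn_congr_fun e measurableSet_Ioo]
    exact integrable_const_mul_iff (isUnit_iff_ne_zero.2 (volRatio_pos hφ).ne') _
  · have h := integral_image_eq_integral_abs_deriv_smul measurableSet_Ioo hd' hinj
      (fun t => F t * φ t ^ m)
    rw [him] at h
    rw [h, setIntegral_congr_fun measurableSet_Ioo e, integral_const_mul]

/-- The integral of the lower power in the ball coordinate. -/
theorem integral_pow_pred {k : ℕ} {φ : ℝ → ℝ} (hφ : IsProfile (k + 1) φ) :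
    IntegrableOn (fun x => q0 k x * ballSlope (k + 1) φ x ^ ((1 : ℝ) / (k + 1))) (Ioo 0 1) ∧
      (∫ t in Ioo (0 : ℝ) 1, φ t ^ k) =
        volRatio (k + 1) φ ^ ((k : ℝ) / (k + 1)) *
          ∫ x in Ioo (0 : ℝ) 1, q0 k x * ballSlope (k + 1) φ x ^ ((1 : ℝ) / (k + 1)) := by
  obtain ⟨-, -, -, -, hmem, -, -⟩ := ballMap_props hφ
  obtain ⟨hi, he⟩ := integral_comp_ballMap hφ fun t => (φ t)⁻¹
  have e1 : ∀ t ∈ Ioo (0 : ℝ) 1, (φ t)⁻¹ * φ t ^ (k + 1) = φ t ^ k := fun t ht => by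
    rw [pow_succ', inv_mul_cancel_left₀ (profile_pos hφ (sub_Ioo ht)).ne']
  set v := volRatio (k + 1) φ with hv
  have hv0 : 0 < v := volRatio_pos hφ
  have e2 : ∀ x ∈ Ioo (0 : ℝ) 1, q0 k x * ballSlope (k + 1) φ x ^ ((1 : ℝ) / (k + 1)) =
      v ^ ((1 : ℝ) / (k + 1)) * ((φ (ballMap (k + 1) φ x))⁻¹ * q0 (k + 1) x) := by
    intro x hx
    have hp := profile_pos hφ (sub_Ioo (hmem x hx))
    have hs : 0 < √(1 - x ^ 2) := Real.sqrt_pos.2 (by nlinarith [hx.1, hx.2])
    rw [ballSlope, ← hv, q0, q0, mul_div_assoc, ← div_pow, Real.mul_rpow hv0.le (by positivity),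
      show (1 : ℝ) / (k + 1) = (((k + 1 : ℕ) : ℝ))⁻¹ by push_cast; rw [one_div],
      Real.pow_rpow_inv_natCast (by positivity) (Nat.succ_ne_zero k)]
    field_simp
    ring
  have hin : IntegrableOn (fun x => (φ (ballMap (k + 1) φ x))⁻¹ * q0 (k + 1) x) (Ioo 0 1) :=
    hi.1 (((intervalIntegrable_iff_integrableOn_Ioo_of_le zero_le_one).1
      (intervalIntegrable_pow hφ k)).congr_fun (fun t ht => (e1 t ht).symm) measurableSet_Ioo)
  refine ⟨IntegrableOn.congr_fun (hin.const_mul _) (fun x hx => (e2 x hx).symm) measurableSet_Ioo, ?_⟩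
  rw [setIntegral_congr_fun measurableSet_Ioo e2, integral_const_mul, ← mul_assoc,
    ← Real.rpow_add hv0, ← add_div, div_self (by positivity), Real.rpow_one, ← he,
    setIntegral_congr_fun measurableSet_Ioo e1]

/-- The logarithmic gain in the ball coordinate. -/
theorem log_gain {k : ℕ} (hk : 1 ≤ k) {φ : ℝ → ℝ} (hφ : IsProfile (k + 1) φ) :
    IntegrableOn (fun x => q0 k x * Real.log (ballSlope (k + 1) φ x)) (Ioo 0 1) ∧
      (∫ x in Ioo (0 : ℝ) 1, q0 k x * Real.log (ballSlope (k + 1) φ x)) ≤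
        (∫ x in Ioo (0 : ℝ) 1, q0 k x) * (((k : ℝ) + 1) *
          Real.log ((∫ t in Ioo (0 : ℝ) 1, φ t ^ k) / ∫ x in Ioo (0 : ℝ) 1, q0 k x) -
          k * Real.log (volRatio (k + 1) φ)) := by
  obtain ⟨-, -, -, -, hmem, -, hd⟩ := ballMap_props hφ
  obtain ⟨hI, he⟩ := integral_pow_pred hφ
  set v := volRatio (k + 1) φ with hv
  have hv0 : 0 < v := volRatio_pos hφ
  set P := ∫ x in Ioo (0 : ℝ) 1, q0 k x * ballSlope (k + 1) φ x ^ ((1 : ℝ) / (k + 1)) with hP
  have hb0 := ballMass_pos k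
  set Z := ∫ x in Ioo (0 : ℝ) 1, q0 k x with hZ
  have hc0 : ContinuousOn (fun x => ballSlope (k + 1) φ x) (Ioo 0 1) := by
    refine (continuousOn_const.mul (continuous_q0 _).continuousOn).div (ContinuousOn.pow ?_ _)
      fun x hx => (pow_pos (profile_pos hφ (sub_Ioo (hmem x hx))) _).ne'
    exact ((profile_continuousOn hφ).mono sub_Ioo).comp
      (fun x hx => (hd x hx).continuousAt.continuousWithinAt) hmem
  have hφ1 : 1 ≤ φ 0 := by simpa using hφ.above 0 (by simp)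
  set A : ℝ := |Real.log v| + ((k : ℝ) + 1) * φ 0 + ((k : ℝ) + 1) with hA
  have hq : IntegrableOn (q0 k) (Ioo 0 1) :=
    (continuous_q0 k).integrableOn_Icc.mono_set Ioo_subset_Icc_self
  have hbound : ∀ x ∈ Ioo (0 : ℝ) 1, |q0 k x * Real.log (ballSlope (k + 1) φ x)| ≤
      A + ((k : ℝ) + 1) * (q0 k x * ballSlope (k + 1) φ x ^ ((1 : ℝ) / (k + 1))) := by
    intro x hx
    have ha := ballSlope_pos hφ hx
    have hq1 : q0 k x ≤ 1 := pow_le_one₀ (Real.sqrt_nonneg _)
      (Real.sqrt_le_one.2 (by nlinarith [sq_nonneg x]))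
    have hqp := q0_pos (m := k) hx
    set r := ballSlope (k + 1) φ x ^ ((1 : ℝ) / (k + 1)) with hr
    have hr0 : 0 < r := Real.rpow_pos_of_pos ha _
    have hlog : Real.log (ballSlope (k + 1) φ x) = ((k : ℝ) + 1) * Real.log r := by
      rw [hr, Real.log_rpow ha]; field_simp
    have up : Real.log (ballSlope (k + 1) φ x) ≤ ((k : ℝ) + 1) * r := by
      rw [hlog]
      exact mul_le_mul_of_nonneg_left ((Real.log_le_sub_one_of_pos hr0).trans (by linarith))
        (by positivity)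
    have hs : 0 < √(1 - x ^ 2) := Real.sqrt_pos.2 (by nlinarith [hx.1, hx.2])
    have hp := profile_pos hφ (sub_Ioo (hmem x hx))
    have lo : -(|Real.log v| + ((k : ℝ) + 1) * φ 0 + ((k : ℝ) + 1) / √(1 - x ^ 2)) ≤
        Real.log (ballSlope (k + 1) φ x) := by
      rw [ballSlope, ← hv, q0, Real.log_div (by positivity) (by positivity),
        Real.log_mul hv0.ne' (by positivity), Real.log_pow, Real.log_pow]
      have l1 := neg_abs_le (Real.log v)
      have l2 : Real.log (φ (ballMap (k + 1) φ x)) ≤ φ 0 :=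
        ((Real.log_le_sub_one_of_pos hp).trans (by linarith)).trans
          (profile_le_top hφ (Ioo_subset_Icc_self (sub_Ioo (hmem x hx))))
      have l3 : -(1 / √(1 - x ^ 2)) ≤ Real.log √(1 - x ^ 2) := by
        have := Real.log_le_sub_one_of_pos (inv_pos.2 hs)
        rw [Real.log_inv] at this
        rw [one_div]
        linarith
      push_cast
      have := mul_le_mul_of_nonneg_left l2 (show (0 : ℝ) ≤ (k : ℝ) + 1 by positivity)
      have := mul_le_mul_of_nonneg_left l3 (show (0 : ℝ) ≤ (k : ℝ) + 1 by positivity)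
      rw [mul_neg, mul_one_div] at this
      linarith
    have hqs : q0 k x * (((k : ℝ) + 1) / √(1 - x ^ 2)) ≤ (k : ℝ) + 1 := by
      obtain ⟨j, rfl⟩ : ∃ j, k = j + 1 := ⟨k - 1, by omega⟩
      rw [q0, pow_succ]
      calc √(1 - x ^ 2) ^ j * √(1 - x ^ 2) * (((↑(j + 1) : ℝ) + 1) / √(1 - x ^ 2))
          = √(1 - x ^ 2) ^ j * ((↑(j + 1) : ℝ) + 1) := by field_simp
        _ ≤ _ := mul_le_of_le_one_left (by positivity) (pow_le_one₀ (Real.sqrt_nonneg _)
          (Real.sqrt_le_one.2 (by nlinarith [sq_nonneg x])))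
    have hA' : 0 ≤ |Real.log v| + ((k : ℝ) + 1) * φ 0 :=
      add_nonneg (abs_nonneg _) (mul_nonneg (by positivity) (by linarith))
    rw [abs_le]
    constructor
    · have h1 := mul_le_mul_of_nonneg_left lo hqp.le
      have h2 := mul_le_mul_of_nonneg_right hq1 hA'
      have h3 : 0 ≤ ((k : ℝ) + 1) * (q0 k x * r) := by positivity
      rw [mul_neg, mul_add, mul_add] at h1
      simp only [hA]
      linarith [mul_add (q0 k x) |Real.log v| (((k : ℝ) + 1) * φ 0)]
    · have h1 := mul_le_mul_of_nonneg_left up hqp.le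
      simp only [hA]
      linarith [mul_left_comm (q0 k x) ((k : ℝ) + 1) r, Nat.cast_nonneg (α := ℝ) k]
  have hli : IntegrableOn (fun x => q0 k x * Real.log (ballSlope (k + 1) φ x)) (Ioo 0 1) := by
    refine ((integrableOn_const (by simp : volume (Ioo (0 : ℝ) 1) ≠ ⊤) (C := A)).add
      (hI.const_mul ((k : ℝ) + 1))).mono' (((continuous_q0 k).continuousOn.mul (hc0.log fun x hx =>
        (ballSlope_pos hφ hx).ne')).aestronglyMeasurable measurableSet_Ioo) ?_
    filter_upwards [ae_restrict_mem measurableSet_Ioo] with x hx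
    exact hbound x hx
  refine ⟨hli, ?_⟩
  have hPp : 0 < P := by
    have h1 : 0 < ∫ t in Ioo (0 : ℝ) 1, φ t ^ k := by
      refine hb0.trans_le (setIntegral_mono_on hq
        ((intervalIntegrable_iff_integrableOn_Ioo_of_le zero_le_one).1 (intervalIntegrable_pow hφ k))
        measurableSet_Ioo fun t ht => ?_)
      exact pow_le_pow_left₀ (Real.sqrt_nonneg _)
        (hφ.above t (Ioo_subset_Icc_self (sub_Ioo ht))) k
    rw [he] at h1
    exact pos_of_mul_pos_right h1 (Real.rpow_nonneg hv0.le _)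
  rw [he, mul_div_assoc, Real.log_mul (Real.rpow_pos_of_pos hv0 _).ne' (div_pos hPp hb0).ne',
    Real.log_rpow hv0,
    show ((k : ℝ) + 1) * ((k : ℝ) / (k + 1) * Real.log v + Real.log (P / Z)) - k * Real.log v =
      ((k : ℝ) + 1) * Real.log (P / Z) by field_simp; ring]
  have hle : ∀ x ∈ Ioo (0 : ℝ) 1, q0 k x * Real.log (ballSlope (k + 1) φ x) ≤
      ((k : ℝ) + 1) * ((Real.log (P / Z) - 1) * q0 k x +
        Z / P * (q0 k x * ballSlope (k + 1) φ x ^ ((1 : ℝ) / (k + 1)))) := fun x hx => by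
    have ha := ballSlope_pos hφ hx
    have hr0 := Real.rpow_pos_of_pos ha ((1 : ℝ) / (k + 1))
    have h := mul_le_mul_of_nonneg_left (Real.log_le_sub_one_of_pos
      (mul_pos (div_pos hb0 hPp) hr0)) (mul_nonneg (show (0 : ℝ) ≤ (k : ℝ) + 1 by positivity)
        (q0_pos (m := k) hx).le)
    rw [Real.log_mul (div_pos hb0 hPp).ne' hr0.ne', Real.log_rpow ha,
      show Real.log (Z / P) = -Real.log (P / Z) by rw [← Real.log_inv, inv_div]] at h
    have e : ((k : ℝ) + 1) * q0 k x * (1 / ((k : ℝ) + 1) * Real.log (ballSlope (k + 1) φ x)) =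
        q0 k x * Real.log (ballSlope (k + 1) φ x) := by field_simp
    rw [mul_add, e] at h
    linarith
  have hsum : IntegrableOn (fun x => (Real.log (P / Z) - 1) * q0 k x +
      Z / P * (q0 k x * ballSlope (k + 1) φ x ^ ((1 : ℝ) / (k + 1)))) (Ioo 0 1) :=
    (hq.const_mul _).add (hI.const_mul _)
  refine (setIntegral_mono_on hli (hsum.const_mul _) measurableSet_Ioo hle).trans (le_of_eq ?_)
  rw [integral_const_mul, integral_add (hq.const_mul _) (hI.const_mul _), integral_const_mul,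
    integral_const_mul, ← hP, ← hZ]
  field_simp
  ring

end Vale.Agent.P237.Front
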