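import Mathlib
import Vale.Agent.P237.Front.Transport
import Vale.Agent.P237.Full.Data.Fisher

/-!
The Fisher datum tested on functions of the ball coordinate and the height.
-/

namespace Vale.Agent.P237.Front

open MeasureTheory Set Full Loss Filter
open scoped Topology RealInnerProductSpace

variable {m : ℕ} {φ : ℝ → ℝ}

private lemma sub_Ioo : Ioo (0 : ℝ) 1 ⊆ Ioo (-1) 1 := Ioo_subset_Ioo_left (by norm_num)

/-- The height to ball coordinate map. -/
noncomputable def coord (m : ℕ) (φ : ℝ → ℝ) (s : ℝ) : ℝ :=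
  Function.invFunOn (ballMap m φ) (Icc 0 1) s

/-- The derivative of `coord`. -/
noncomputable def coordSlope (m : ℕ) (φ : ℝ → ℝ) (s : ℝ) : ℝ :=
  φ s ^ m / (volRatio m φ * q0 m (coord m φ s))

theorem coord_props (hφ : IsProfile m φ) :
    ContinuousOn (coord m φ) (Icc 0 1) ∧ coord m φ 0 = 0 ∧
      (∀ s ∈ Icc (0 : ℝ) 1, coord m φ s ∈ Icc (0 : ℝ) 1) ∧
      (∀ s ∈ Ico (0 : ℝ) 1, coord m φ s ∈ Ico (0 : ℝ) 1) ∧
      (∀ x ∈ Icc (0 : ℝ) 1, coord m φ (ballMap m φ x) = x) ∧
      (∀ s ∈ Ioo (0 : ℝ) 1, HasDerivAt (coord m φ) (coordSlope m φ s) s) := by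
  obtain ⟨hm, hc, h0, h1, hmem, -, hd⟩ := ballMap_props hφ
  have hsurj : SurjOn (ballMap m φ) (Icc 0 1) (Icc 0 1) := by
    have h := intermediate_value_Icc zero_le_one hc
    rwa [h0, h1] at h
  have hg : ∀ s ∈ Icc (0 : ℝ) 1, coord m φ s ∈ Icc (0 : ℝ) 1 ∧ ballMap m φ (coord m φ s) = s :=
    fun s hs => ⟨Function.invFunOn_mem (hsurj hs), Function.invFunOn_eq (hsurj hs)⟩
  have hgf : ∀ x ∈ Icc (0 : ℝ) 1, coord m φ (ballMap m φ x) = x := fun x hx =>
    hm.injOn (Function.invFunOn_mem ⟨x, hx, rfl⟩) hx (Function.invFunOn_eq ⟨x, hx, rfl⟩)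
  have hrange : ∀ x ∈ Icc (0 : ℝ) 1, ballMap m φ x ∈ Icc (0 : ℝ) 1 := fun x hx =>
    ⟨h0 ▸ hm.monotoneOn (by simp) hx hx.1, h1 ▸ hm.monotoneOn hx (by simp) hx.2⟩
  have hgc : ContinuousOn (coord m φ) (Icc 0 1) := by
    rw [continuousOn_iff_continuous_domRestrict]
    set g' : Icc (0 : ℝ) 1 → Icc (0 : ℝ) 1 := fun s => ⟨coord m φ s, (hg s s.2).1⟩ with hg'
    have hmono : Monotone g' := fun a c hac => by
      by_contra hle
      have := hm (hg c c.2).1 (hg a a.2).1 (not_le.1 hle)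
      rw [(hg a a.2).2, (hg c c.2).2] at this
      exact absurd (Subtype.coe_le_coe.2 hac) (not_le.2 this)
    have hs : Function.Surjective g' := fun x =>
      ⟨⟨ballMap m φ x, hrange x x.2⟩, Subtype.ext (hgf x x.2)⟩
    exact continuous_subtype_val.comp (hmono.continuous_of_surjective hs)
  have hzero : coord m φ 0 = 0 := by conv_lhs => rw [← h0, hgf 0 (by simp)]
  have hlt : ∀ s ∈ Ico (0 : ℝ) 1, coord m φ s ∈ Ico (0 : ℝ) 1 := fun s hs => by
    have hI := Ico_subset_Icc_self hs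
    refine ⟨(hg s hI).1.1, lt_of_le_of_ne (hg s hI).1.2 fun e => ?_⟩
    have := (hg s hI).2
    rw [e, h1] at this
    linarith [hs.2]
  refine ⟨hgc, hzero, fun s hs => (hg s hs).1, hlt, hgf, fun s hs => ?_⟩
  have hI := Ioo_subset_Icc_self hs
  have hx : coord m φ s ∈ Ioo (0 : ℝ) 1 := by
    refine ⟨lt_of_le_of_ne (hg s hI).1.1 fun e => ?_, (hlt s (Ioo_subset_Ico_self hs)).2⟩
    have := (hg s hI).2
    rw [← e, h0] at this
    linarith [hs.1]
  have h := (hd _ hx).of_local_left_inverse (hgc.continuousAt (Icc_mem_nhds hs.1 hs.2))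
    (ballSlope_pos hφ hx).ne'
    (Filter.eventually_of_mem (Icc_mem_nhds hs.1 hs.2) fun u hu => (hg u hu).2)
  refine h.congr_deriv ?_
  rw [ballSlope, (hg s hI).2, inv_div, coordSlope]

theorem coordSlope_continuousOn (hφ : IsProfile m φ) :
    ContinuousOn (coordSlope m φ) (Ico 0 1) ∧ ∀ s ∈ Ico (0 : ℝ) 1, 0 ≤ coordSlope m φ s := by
  obtain ⟨hc, -, -, hlt, -, -⟩ := coord_props hφ
  have hsub : Ico (0 : ℝ) 1 ⊆ Ioo (-1) 1 := fun s hs => ⟨by linarith [hs.1], hs.2⟩
  have hq : ∀ s ∈ Ico (0 : ℝ) 1, 0 < q0 m (coord m φ s) := fun s hs =>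
    pow_pos (Real.sqrt_pos.2 (by nlinarith [(hlt s hs).1, (hlt s hs).2])) m
  refine ⟨(((profile_continuousOn hφ).mono hsub).pow m).div (continuousOn_const.mul
    ((continuous_q0 m).comp_continuousOn (hc.mono Ico_subset_Icc_self)))
    fun s hs => (mul_pos (volRatio_pos hφ) (hq s hs)).ne', fun s hs => ?_⟩
  exact div_nonneg (pow_nonneg (profile_pos hφ (hsub hs)).le m)
    (mul_pos (volRatio_pos hφ) (hq s hs)).le

/-- The slope of the coordinate map cut off near the end of the interval, made even. -/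
noncomputable def cutSlope (m : ℕ) (φ : ℝ → ℝ) (k : ℕ) (s : ℝ) : ℝ :=
  if |s| < 1 then max 0 (min 1 ((k : ℝ) * (1 - |s|) - 1)) * coordSlope m φ |s| else 0

/-- The coordinate map cut off near the end of the interval. -/
noncomputable def cutCoord (m : ℕ) (φ : ℝ → ℝ) (k : ℕ) (s : ℝ) : ℝ :=
  ∫ u in (0 : ℝ)..s, cutSlope m φ k u

theorem continuous_cutSlope (hφ : IsProfile m φ) (k : ℕ) : Continuous (cutSlope m φ k) := by
  obtain ⟨hc, -⟩ := coordSlope_continuousOn hφ
  refine continuous_iff_continuousAt.2 fun s₀ => ?_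
  by_cases h : |s₀| < 1
  · have hopen : IsOpen {s : ℝ | |s| < 1} := isOpen_lt continuous_abs continuous_const
    refine ContinuousAt.congr ?_ (Filter.eventually_of_mem (hopen.mem_nhds h)
      fun s (hs : |s| < 1) => (if_pos hs).symm)
    refine ContinuousAt.mul (by fun_prop) ?_
    refine ((hc.comp continuous_abs.continuousOn fun s (hs : |s| < 1) => ⟨abs_nonneg s, hs⟩)
      ).continuousAt (hopen.mem_nhds h)
  · refine ContinuousAt.congr (continuousAt_const (y := (0 : ℝ))) ?_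
    have hev : ∀ᶠ s in 𝓝 s₀, (k : ℝ) * (1 - |s|) < 1 :=
      (continuousAt_const.mul (continuousAt_const.sub continuous_abs.continuousAt)).eventually_lt
        continuousAt_const (by
          simp only [Pi.mul_apply, Pi.sub_apply]
          nlinarith [Nat.cast_nonneg (α := ℝ) k, not_lt.1 h])
    filter_upwards [hev] with s hs
    rw [cutSlope]
    split_ifs
    · rw [max_eq_left ((min_le_right _ _).trans (by linarith)), zero_mul]
    · rfl

theorem cutCoord_props (hφ : IsProfile m φ) (k : ℕ) :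
    (∀ s, HasDerivAt (cutCoord m φ k) (cutSlope m φ k s) s) ∧
      ContDiff ℝ 1 (cutCoord m φ k) ∧ ∀ s, cutCoord m φ k (-s) = -cutCoord m φ k s := by
  have hc := continuous_cutSlope hφ k
  have hd : ∀ s, HasDerivAt (cutCoord m φ k) (cutSlope m φ k s) s := fun s =>
    intervalIntegral.integral_hasDerivAt_right (hc.intervalIntegrable 0 s)
      (hc.stronglyMeasurableAtFilter volume (𝓝 s)) hc.continuousAt
  refine ⟨hd, contDiff_one_iff_deriv.2 ⟨fun s => (hd s).differentiableAt, ?_⟩, fun s => ?_⟩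
  · rwa [show deriv (cutCoord m φ k) = cutSlope m φ k from funext fun s => (hd s).deriv]
  · have he : ∀ u, cutSlope m φ k (-u) = cutSlope m φ k u := fun u => by simp [cutSlope]
    have h := intervalIntegral.integral_comp_neg (cutSlope m φ k) (a := 0) (b := s)
    simp only [he, neg_zero] at h
    rw [cutCoord, cutCoord, intervalIntegral.integral_symm, ← h]

theorem cut_bounds (hφ : IsProfile m φ) (k : ℕ) {s : ℝ} (hs : s ∈ Ioo (0 : ℝ) 1) :
    |cutSlope m φ k s| ≤ coordSlope m φ s ∧ cutCoord m φ k s ∈ Icc (0 : ℝ) 1 ∧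
      ((2 : ℝ) ≤ k * (1 - s) → cutSlope m φ k s = coordSlope m φ s ∧
        cutCoord m φ k s = coord m φ s) := by
  obtain ⟨hc, h0, hmem, -, -, hd⟩ := coord_props hφ
  obtain ⟨hsc, hnn⟩ := coordSlope_continuousOn hφ
  have hb : ∀ u ∈ Ico (0 : ℝ) 1, 0 ≤ cutSlope m φ k u ∧ cutSlope m φ k u ≤ coordSlope m φ u :=
    fun u hu => by
    rw [cutSlope, abs_of_nonneg hu.1, if_pos hu.2]
    exact ⟨mul_nonneg (le_max_left _ _) (hnn u hu),
      mul_le_of_le_one_left (hnn u hu) (max_le zero_le_one (min_le_left _ _))⟩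
  have hsub : Icc (0 : ℝ) s ⊆ Ico 0 1 := fun u hu => ⟨hu.1, hu.2.trans_lt hs.2⟩
  have hI : IntervalIntegrable (coordSlope m φ) volume 0 s := by
    refine ContinuousOn.intervalIntegrable ?_
    rw [uIcc_of_le hs.1.le]
    exact hsc.mono hsub
  have hftc : (∫ u in (0 : ℝ)..s, coordSlope m φ u) = coord m φ s := by
    rw [intervalIntegral.integral_eq_sub_of_hasDerivAt_of_le hs.1.le
      (hc.mono (Icc_subset_Icc_right hs.2.le))
      (fun u hu => hd u ⟨hu.1, hu.2.trans hs.2⟩) hI, h0, sub_zero]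
  have hk := (continuous_cutSlope hφ k).intervalIntegrable (μ := volume) 0 s
  refine ⟨?_, ⟨intervalIntegral.integral_nonneg hs.1.le fun u hu => (hb u (hsub hu)).1, ?_⟩,
    fun h2 => ?_⟩
  · rw [abs_of_nonneg (hb s (Ioo_subset_Ico_self hs)).1]
    exact (hb s (Ioo_subset_Ico_self hs)).2
  · refine le_trans ?_ ((hmem s (Ioo_subset_Icc_self hs)).2)
    rw [← hftc]
    exact intervalIntegral.integral_mono_on hs.1.le hk hI fun u hu => (hb u (hsub hu)).2
  · have he : ∀ u ∈ Icc (0 : ℝ) s, cutSlope m φ k u = coordSlope m φ u := fun u hu => by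
      have hku : (2 : ℝ) ≤ k * (1 - u) :=
        h2.trans (mul_le_mul_of_nonneg_left (by linarith [hu.2]) (Nat.cast_nonneg k))
      rw [cutSlope, abs_of_nonneg hu.1, if_pos (hsub hu).2, min_eq_left (by linarith),
        max_eq_right zero_le_one, one_mul]
    refine ⟨he s ⟨hs.1.le, le_rfl⟩, ?_⟩
    rw [cutCoord, intervalIntegral.integral_congr (by rwa [uIcc_of_le hs.1.le]), hftc]

/-- The first derivative of the test. -/
noncomputable def gx (g : ℝ × ℝ → ℝ) (x s : ℝ) : ℝ := fderiv ℝ g (x, s) (1, 0)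

/-- The second derivative of the test. -/
noncomputable def gs (g : ℝ × ℝ → ℝ) (x s : ℝ) : ℝ := fderiv ℝ g (x, s) (0, 1)

/-- The integrand of the datum at ball coordinate `x`, height `s` and slope `a`. -/
noncomputable def testFun (n : ℝ) (g : ℝ × ℝ → ℝ) (x s a : ℝ) : ℝ :=
  2 * (1 - s * g (x, s)) * (gx g x s / a + gs g x s) - n * g (x, s) ^ 2

private lemma cut_test_tendsto (hφ : IsProfile m φ) (n : ℝ) {g : ℝ × ℝ → ℝ}
    (hg : ContDiff ℝ 1 g) :
    IntegrableOn (fun x => q0 m x * testFun n g x (ballMap m φ x) (ballSlope m φ x)) (Ioo 0 1) ∧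
    Tendsto (fun k : ℕ => ∫ s in Ioo (0 : ℝ) 1,
      (2 * deriv (fun t => g (cutCoord m φ k t, t)) s - n * g (cutCoord m φ k s, s) ^ 2 -
        2 * s * g (cutCoord m φ k s, s) * deriv (fun t => g (cutCoord m φ k t, t)) s) * φ s ^ m)
      atTop (𝓝 (volRatio m φ *
        ∫ x in Ioo (0 : ℝ) 1, q0 m x * testFun n g x (ballMap m φ x) (ballSlope m φ x))) := by
  obtain ⟨hc, h0, hmem, -, hgf, hd⟩ := coord_props hφ
  obtain ⟨hsc, hnn⟩ := coordSlope_continuousOn hφ
  obtain ⟨-, -, -, -, hSmem, -, -⟩ := ballMap_props hφ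
  set D : Set (ℝ × ℝ) := Icc 0 1 ×ˢ Icc 0 1 with hD
  have cD : IsCompact D := isCompact_Icc.prod isCompact_Icc
  have hcd : Continuous fun p : ℝ × ℝ => fderiv ℝ g p := hg.continuous_fderiv one_ne_zero
  have hgxc : Continuous fun p : ℝ × ℝ => gx g p.1 p.2 := by
    simp only [gx]; exact (hcd.comp (continuous_fst.prodMk continuous_snd)).clm_apply continuous_const
  have hgsc : Continuous fun p : ℝ × ℝ => gs g p.1 p.2 := by
    simp only [gs]; exact (hcd.comp (continuous_fst.prodMk continuous_snd)).clm_apply continuous_const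
  obtain ⟨Bg, hBg⟩ := cD.exists_bound_of_continuousOn hg.continuous.continuousOn
  obtain ⟨Bx, hBx⟩ := cD.exists_bound_of_continuousOn hgxc.continuousOn
  obtain ⟨Bs, hBs⟩ := cD.exists_bound_of_continuousOn hgsc.continuousOn
  set T : ℝ → ℝ → ℝ → ℝ := fun c w s =>
    (2 * (gx g c s * w + gs g c s) - n * g (c, s) ^ 2 -
      2 * s * g (c, s) * (gx g c s * w + gs g c s)) * φ s ^ m with hT
  have hderiv : ∀ (k : ℕ) (s : ℝ), deriv (fun t => g (cutCoord m φ k t, t)) s =
      gx g (cutCoord m φ k s) s * cutSlope m φ k s + gs g (cutCoord m φ k s) s := by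
    intro k s
    have h := HasFDerivAt.comp_hasDerivAt (f := fun t => (cutCoord m φ k t, t)) s
      (hg.differentiable one_ne_zero (cutCoord m φ k s, s)).hasFDerivAt
      (((cutCoord_props hφ k).1 s).prodMk (hasDerivAt_id' s))
    rw [show deriv (fun t => g (cutCoord m φ k t, t)) s = _ from h.deriv]
    rw [show ((cutSlope m φ k s, (1 : ℝ)) : ℝ × ℝ) =
      cutSlope m φ k s • ((1 : ℝ), (0 : ℝ)) + ((0 : ℝ), (1 : ℝ)) by simp,
      map_add, map_smul, smul_eq_mul, gx, gs, mul_comm]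
  have hTm : ∀ (c w : ℝ → ℝ), ContinuousOn c (Ioo 0 1) → ContinuousOn w (Ioo 0 1) →
      ContinuousOn (fun s => T (c s) (w s) s) (Ioo 0 1) := by
    intro c w hc' hw'
    have hp : ContinuousOn (fun s => (c s, s)) (Ioo 0 1) := hc'.prodMk continuousOn_id
    have e1 : ContinuousOn (fun s => g (c s, s)) (Ioo 0 1) := hg.continuous.comp_continuousOn hp
    have e2 : ContinuousOn (fun s => gx g (c s) s) (Ioo 0 1) := hgxc.comp_continuousOn hp
    have e3 : ContinuousOn (fun s => gs g (c s) s) (Ioo 0 1) := hgsc.comp_continuousOn hp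
    have e4 : ContinuousOn φ (Ioo 0 1) := (profile_continuousOn hφ).mono sub_Ioo
    have e5 := (e2.mul hw').add e3
    exact ((((continuousOn_const (c := (2 : ℝ))).mul e5).sub
      ((continuousOn_const (c := n)).mul (e1.pow 2))).sub
      ((((continuousOn_const (c := (2 : ℝ))).mul continuousOn_id).mul e1).mul e5)).mul (e4.pow m)
  set U : ℝ → ℝ := fun s => (2 * (Bx * coordSlope m φ s + Bs) + |n| * Bg ^ 2 +
    2 * Bg * (Bx * coordSlope m φ s + Bs)) * φ 0 ^ m with hU
  have hUi : IntegrableOn U (Ioo 0 1) := by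
    have hci : IntegrableOn (coordSlope m φ) (Ioo 0 1) :=
      (intervalIntegral.integrableOn_deriv_of_nonneg hc hd
        fun s hs => hnn s (Ioo_subset_Ico_self hs)).mono_set Ioo_subset_Ioc_self
    have h1 : IntegrableOn (fun s => (2 * Bx + 2 * Bg * Bx) * φ 0 ^ m * coordSlope m φ s +
        (2 * Bs + |n| * Bg ^ 2 + 2 * Bg * Bs) * φ 0 ^ m) (Ioo 0 1) :=
      (hci.const_mul _).add (integrableOn_const (by simp))
    exact h1.congr_fun (fun s _ => by simp only [hU]; ring) measurableSet_Ioo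
  have hbound : ∀ c w s, c ∈ Icc (0 : ℝ) 1 → s ∈ Ioo (0 : ℝ) 1 → |w| ≤ coordSlope m φ s →
      |T c w s| ≤ U s := by
    intro c w s hc' hs hw
    have hmemD : (c, s) ∈ D := ⟨hc', Ioo_subset_Icc_self hs⟩
    have b1 : |g (c, s)| ≤ Bg := hBg _ hmemD
    have b2 : |gx g c s| ≤ Bx := hBx _ hmemD
    have b3 : |gs g c s| ≤ Bs := hBs _ hmemD
    have hb : |gx g c s * w + gs g c s| ≤ Bx * coordSlope m φ s + Bs := by
      refine (abs_add_le _ _).trans (add_le_add ?_ b3)
      rw [abs_mul]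
      exact mul_le_mul b2 hw (abs_nonneg _) ((abs_nonneg _).trans b2)
    have hp := profile_pos hφ (sub_Ioo hs)
    have hBg0 : 0 ≤ Bg := (abs_nonneg _).trans b1
    have hX0 : 0 ≤ Bx * coordSlope m φ s + Bs := (abs_nonneg _).trans hb
    simp only [hT, hU]
    rw [abs_mul, abs_of_pos (pow_pos hp m)]
    refine mul_le_mul ?_ (pow_le_pow_left₀ hp.le
      (profile_le_top hφ (Ioo_subset_Icc_self (sub_Ioo hs))) m) (pow_pos hp m).le (by positivity)
    refine (abs_sub _ _).trans (add_le_add ((abs_sub _ _).trans (add_le_add ?_ ?_)) ?_)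
    · rw [abs_mul, abs_two]; linarith
    · rw [abs_mul, abs_pow]
      exact mul_le_mul_of_nonneg_left (pow_le_pow_left₀ (abs_nonneg _) b1 2) (abs_nonneg n)
    · rw [abs_mul, abs_mul, abs_mul, abs_two, abs_of_pos hs.1]
      refine mul_le_mul ?_ hb (abs_nonneg _) (by positivity)
      calc 2 * s * |g (c, s)| ≤ 2 * 1 * Bg :=
            mul_le_mul (by linarith [hs.2]) b1 (abs_nonneg _) (by norm_num)
        _ = 2 * Bg := by ring
  have hTi : IntegrableOn (fun s => T (coord m φ s) (coordSlope m φ s) s) (Ioo 0 1) := by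
    refine hUi.mono' ((hTm _ _ (hc.mono Ioo_subset_Icc_self)
      (hsc.mono Ioo_subset_Ico_self)).aestronglyMeasurable measurableSet_Ioo) ?_
    filter_upwards [ae_restrict_mem measurableSet_Ioo] with s hs
    exact hbound _ _ s (hmem s (Ioo_subset_Icc_self hs)) hs
      (le_of_eq (abs_of_nonneg (hnn s (Ioo_subset_Ico_self hs))))
  set F : ℝ → ℝ := fun s => 2 * (gx g (coord m φ s) s * coordSlope m φ s + gs g (coord m φ s) s) -
    n * g (coord m φ s, s) ^ 2 - 2 * s * g (coord m φ s, s) *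
      (gx g (coord m φ s) s * coordSlope m φ s + gs g (coord m φ s) s) with hF
  obtain ⟨hiff, heq⟩ := integral_comp_ballMap hφ F
  have e : ∀ x ∈ Ioo (0 : ℝ) 1, F (ballMap m φ x) * q0 m x =
      q0 m x * testFun n g x (ballMap m φ x) (ballSlope m φ x) := fun x hx => by
    simp only [hF, coordSlope, hgf x (Ioo_subset_Icc_self hx), testFun, ballSlope, div_eq_mul_inv,
      mul_inv_rev, inv_inv]
    ring
  refine ⟨IntegrableOn.congr_fun (hiff.1 hTi) e measurableSet_Ioo, ?_⟩
  simp only [hderiv]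
  have hlim : volRatio m φ *
      (∫ x in Ioo (0 : ℝ) 1, q0 m x * testFun n g x (ballMap m φ x) (ballSlope m φ x)) =
      ∫ s in Ioo (0 : ℝ) 1, T (coord m φ s) (coordSlope m φ s) s := by
    rw [← setIntegral_congr_fun measurableSet_Ioo e, ← heq]
  rw [hlim]
  refine tendsto_integral_of_dominated_convergence U (fun k => ?_) hUi (fun k => ?_) ?_
  · exact (hTm _ _ ((cutCoord_props hφ k).2.1.continuous.continuousOn)
      (continuous_cutSlope hφ k).continuousOn).aestronglyMeasurable measurableSet_Ioo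
  · filter_upwards [ae_restrict_mem measurableSet_Ioo] with s hs
    obtain ⟨b1, b2, -⟩ := cut_bounds hφ k hs
    exact hbound _ _ s b2 hs b1
  · filter_upwards [ae_restrict_mem measurableSet_Ioo] with s hs
    refine tendsto_const_nhds.congr' ?_
    filter_upwards [(tendsto_natCast_atTop_atTop (R := ℝ)).eventually_ge_atTop (2 / (1 - s))]
      with k hk
    obtain ⟨e1, e2⟩ := (cut_bounds hφ k hs).2.2 ((div_le_iff₀ (by linarith [hs.2])).1 hk)
    simp only [hT, e1, e2]

/-- The Fisher datum for tests depending on the ball coordinate and the height. -/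
theorem fisher_test_datum {N : ℕ} {K : Set (EuclideanSpace ℝ (Fin (m + 1)))} {c : Fin N → ℝ}
    {u : Fin N → EuclideanSpace ℝ (Fin (m + 1))} (h : InJohn K c u) (φ : Fin N → ℝ → ℝ)
    (hφ : ∀ i, IsProfile m (φ i))
    (hs : ∀ i t, sect K (u i) t = if |t| ≤ 1 then kappa m * φ i t ^ m else 0)
    (g : Fin N → ℝ × ℝ → ℝ) (hg : ∀ i, ContDiff ℝ 1 (g i))
    (hodd : ∀ i p, g i (-p) = -g i p) :
    (∀ i, IntegrableOn (fun x => q0 m x * testFun ((m : ℝ) + 1) (g i) x (ballMap m (φ i) x)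
      (ballSlope m (φ i) x)) (Ioo 0 1)) ∧
    ∑ i, c i * ((∫ x in Ioo (0 : ℝ) 1, q0 m x * testFun ((m : ℝ) + 1) (g i) x
        (ballMap m (φ i) x) (ballSlope m (φ i) x)) / ∫ x in Ioo (0 : ℝ) 1, q0 m x) ≤
      (m : ℝ) + 1 := by
  refine ⟨fun i => (cut_test_tendsto (hφ i) ((m : ℝ) + 1) (hg i)).1, ?_⟩
  set V := (volume K).toReal with hV
  have hV0 : 0 < V := ENNReal.toReal_pos
    ((Measure.measure_pos_of_nonempty_interior volume h.1.2.2).ne') h.1.2.1.measure_lt_top.ne
  have hk := kappa_pos m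
  set z : ℕ → Fin N → ℝ → ℝ := fun k i t => g i (cutCoord m (φ i) k t, t) with hz
  have hzd : ∀ k i, ContDiff ℝ 1 (z k i) := fun k i =>
    (hg i).comp ((cutCoord_props (hφ i) k).2.1.prodMk contDiff_id)
  set I : Fin N → ℕ → ℝ := fun i k => ∫ s in Ioo (0 : ℝ) 1,
    (2 * deriv (z k i) s - ((m : ℝ) + 1) * z k i s ^ 2 - 2 * s * z k i s * deriv (z k i) s) *
      φ i s ^ m with hI
  have heven : ∀ {f : ℝ → ℝ}, (∀ t, f (-t) = f t) →
      (∫ t, if |t| ≤ 1 then f t else 0) = 2 * ∫ t in Ioo (0 : ℝ) 1, f t := by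
    intro f hev
    have e : ∀ t : ℝ, (if |t| ≤ 1 then f t else 0) = if |t| ≤ 1 then f |t| else 0 := fun t => by
      rcases abs_choice t with ht | ht <;> simp [ht, hev]
    simp only [e, integral_comp_abs (f := fun t => if t ≤ 1 then f t else 0)]
    congr 1
    rw [← integral_indicator measurableSet_Ioi, ← integral_indicator measurableSet_Ioo]
    refine integral_congr_ae ?_
    filter_upwards [(Set.finite_singleton (1 : ℝ)).countable.ae_notMem volume] with t ht
    have ht1 : t ≠ 1 := ht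
    by_cases h0 : t ∈ Ioi (0 : ℝ)
    · by_cases h1 : t < 1
      · rw [indicator_of_mem h0, indicator_of_mem (show t ∈ Ioo (0 : ℝ) 1 from ⟨h0, h1⟩),
          if_pos h1.le]
      · rw [indicator_of_mem h0, indicator_of_notMem (fun hm => h1 hm.2),
          if_neg (fun hle => ht1 (le_antisymm hle (not_lt.1 h1)))]
    · rw [indicator_of_notMem h0, indicator_of_notMem (fun hm => h0 hm.1)]
  have hVe : ∀ i, V = 2 * kappa m * volRatio m (φ i) * ∫ x in Ioo (0 : ℝ) 1, q0 m x := fun i => by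
    have h2 := integral_sect_mul h.1 (h.2.2.2.2.1 i) (g := fun _ => (1 : ℝ)) continuous_const
    simp only [one_mul, hs, setIntegral_const, measureReal_def, smul_eq_mul, mul_one] at h2
    rw [heven (fun t => by rw [(hφ i).even]), integral_const_mul, ← hV] at h2
    rw [volRatio, mul_assoc _ (_ / _), div_mul_cancel₀ _ (ballMass_pos m).ne']
    linarith
  have hdat : ∀ k, ∑ i, c i * (2 * kappa m * I i k) ≤ ((m : ℝ) + 1) * V := by
    intro k
    refine le_trans (le_of_eq (Finset.sum_congr rfl fun i _ => ?_))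
      (le_of_le_of_eq (fisher_datum h (hzd k)) (by push_cast; ring))
    congr 1
    have hodd' : ∀ t, z k i (-t) = -z k i t := fun t => by
      have e := hodd i (cutCoord m (φ i) k t, t)
      simp only [Prod.neg_mk] at e
      simp only [hz, (cutCoord_props (hφ i) k).2.2, e]
    have hdev : ∀ t, deriv (z k i) (-t) = deriv (z k i) t := fun t => by
      have e : (fun x => z k i (-x)) = fun x => -z k i x := funext hodd'
      have h1 := deriv_comp_neg (z k i) t
      rw [e, deriv.fun_neg] at h1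
      linarith
    have e : ∀ t, (2 * deriv (z k i) t - ((m + 1 : ℕ) : ℝ) * z k i t ^ 2 -
        2 * t * z k i t * deriv (z k i) t) * sect K (u i) t =
        if |t| ≤ 1 then kappa m * ((2 * deriv (z k i) t - ((m : ℝ) + 1) * z k i t ^ 2 -
          2 * t * z k i t * deriv (z k i) t) * φ i t ^ m) else 0 := fun t => by
      rw [hs]
      push_cast
      split_ifs <;> ring
    simp only [e]
    rw [heven (fun t => by rw [hdev, hodd', (hφ i).even]; ring), integral_const_mul, hI]
    ring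
  have hlim : Tendsto (fun k => ∑ i, c i * (2 * kappa m * I i k)) atTop
      (𝓝 (∑ i, c i * (2 * kappa m * (volRatio m (φ i) * ∫ x in Ioo (0 : ℝ) 1,
        q0 m x * testFun ((m : ℝ) + 1) (g i) x (ballMap m (φ i) x) (ballSlope m (φ i) x))))) :=
    tendsto_finsetSum _ fun i _ =>
      (((cut_test_tendsto (hφ i) ((m : ℝ) + 1) (hg i)).2).const_mul _).const_mul _
  have hfin := le_of_tendsto' hlim hdat
  have hZ := ballMass_pos m
  refine le_of_mul_le_mul_left ?_ hV0
  rw [Finset.mul_sum, mul_comm V ((m : ℝ) + 1)]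
  refine le_trans (le_of_eq (Finset.sum_congr rfl fun i _ => ?_)) hfin
  rw [hVe i]
  field_simp

end Vale.Agent.P237.Front
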